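import Vale.Agent.P354KT.Main

/-!
Divergence free tensors for stationary axially symmetric metrics in a stereographic chart.
-/

open scoped ContDiff
open Set Filter Topology

noncomputable section

namespace Vale.Agent.P354W2

open Vale.Agent.P354H (X3 e pd)
open Vale.Agent.P354K
open Vale.Agent.P354KT

/-- The form dx, the rotation field, and the derivatives of the radial and the rotation field. -/
def X0 : Fin 3 → ℝ := ![1, 0, 0]
def Ro (z : X3) : Fin 3 → ℝ := ![0, -z.2.2, z.2.1]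
def D0 : M3 := !![0, 0, 0; 0, 1, 0; 0, 0, 1]
def J0 : M3 := !![0, 0, 0; 0, 0, -1; 0, 1, 0]

theorem gr_N (a : Fin 3) : Gr (fun z => N z a) fun _ j => D0 a j := by
  fin_cases a
  · exact (Gr.const 0).cg (fun _ => rfl) fun _ j => by fin_cases j <;> rfl
  · exact gr_y1.cg (fun _ => rfl) fun _ j => by fin_cases j <;> rfl
  · exact gr_y2.cg (fun _ => rfl) fun _ j => by fin_cases j <;> rfl

theorem gr_R (a : Fin 3) : Gr (fun z => Ro z a) fun _ j => J0 a j := by
  fin_cases a
  · exact (Gr.const 0).cg (fun _ => rfl) fun _ j => by fin_cases j <;> rfl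
  · exact gr_y2.neg.cg (fun _ => rfl) fun _ j => by fin_cases j <;> simp [J0]
  · exact gr_y1.cg (fun _ => rfl) fun _ j => by fin_cases j <;> rfl

/-- A metric for which N + s l rot is orthogonal to rot and to the direction x. -/
def hB (a0 a1 a2 a3 l : X3 → ℝ) (z : X3) : M3 := Matrix.of fun a b =>
  a0 z * (X0 a * X0 b) + a1 z * (X0 a * (Ro z b - ss z * l z * N z b) +
    (Ro z a - ss z * l z * N z a) * X0 b) +
    a2 z * (D0 a b - l z * (N z a * Ro z b + Ro z a * N z b)) + a3 z * (N z a * N z b)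

/-- The tensor F (A rot rot + B e e) with e = N + s l rot. -/
def TB (F A B l : X3 → ℝ) (z : X3) : M3 := Matrix.of fun a b =>
  F z * (A z * (Ro z a * Ro z b) +
    B z * ((N z a + ss z * l z * Ro z a) * (N z b + ss z * l z * Ro z b)))

theorem TB_sm {F A B l : X3 → ℝ} (hF : Sm F) (hA : Sm A) (hB : Sm B) (hl : Sm l) (a b : Fin 3) :
    Sm fun z => TB F A B l z a b :=
  hF.mul ((hA.mul ((gr_R a).sm.mul (gr_R b).sm)).add (hB.mul
    (((gr_N a).sm.add (((Gr.sm rd_ss).mul hl).mul (gr_R a).sm)).mul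
      ((gr_N b).sm.add (((Gr.sm rd_ss).mul hl).mul (gr_R b).sm)))))

theorem TB_symm (F A B l : X3 → ℝ) (z : X3) (a b : Fin 3) :
    TB F A B l z a b = TB F A B l z b a := by
  simp only [TB, Matrix.of_apply]
  ring

theorem div0 {a0 a1 a2 a3 l a0' a1' a2' a3' l' F F' A A' B B' : X3 → ℝ} (π : X3 → M3)
    (h0 : Rd a0 a0') (h1 : Rd a1 a1') (h2 : Rd a2 a2') (h3 : Rd a3 a3') (hl : Rd l l')
    (hF : Gr F fun z j => F' z * X0 j) (hA : Rd A A') (hB' : Rd B B') (z : X3)
    (rel : A z * (2 * a2 z + ss z * a2' z) =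
      2 * ss z * (a2 z * (1 - l z ^ 2 * ss z ^ 2) + a3 z * ss z) * B' z +
      (ss z * (a2' z * (1 - l z ^ 2 * ss z ^ 2) - a2 z * (2 * l z * l' z * ss z ^ 2 +
        4 * l z ^ 2 * ss z) + a3' z * ss z + 2 * a3 z) +
        6 * (a2 z * (1 - l z ^ 2 * ss z ^ 2) + a3 z * ss z)) * B z) (a : Fin 3) :
    PM a (at' (jet (hB a0 a1 a2 a3 l) π) z) (at' (jet 0 (TB F A B l)) z) = 0 := by
  have c := fun x : ℝ => Gr.const x
  have sl := Gr.mul rd_ss hl
  have eh := fun a b => ((((Gr.mul h0 (c (X0 a * X0 b))).add (Gr.mul h1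
    (((c (X0 a)).mul ((gr_R b).sub (sl.mul (gr_N b)))).add
      (((gr_R a).sub (sl.mul (gr_N a))).mul (c (X0 b)))))).add (Gr.mul h2 ((c (D0 a b)).sub
      (Gr.mul hl (((gr_N a).mul (gr_R b)).add ((gr_R a).mul (gr_N b))))))).add
      (Gr.mul h3 ((gr_N a).mul (gr_N b)))).eq
  have eT := fun a b => (hF.mul ((Gr.mul hA ((gr_R a).mul (gr_R b))).add (Gr.mul hB'
    (((gr_N a).add (sl.mul (gr_R a))).mul ((gr_N b).add (sl.mul (gr_R b))))))).eq
  simp only [PM, at', jet, hB, TB, Matrix.of_apply, eh, eT]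
  simp only [ss] at rel
  fin_cases a
  all_goals
    simp only [Fin.sum_univ_three, X0, Ro, D0, J0, N, ss, Matrix.of_apply, Matrix.cons_val',
      Matrix.cons_val_zero, Matrix.cons_val_one, Matrix.cons_val_two, Matrix.cons_val_fin_one,
      Matrix.head_cons, Matrix.tail_cons, Matrix.head_fin_const, Matrix.empty_val',
      Fin.zero_eta, Fin.mk_one, Fin.reduceFinMk, Fin.isValue, mul_zero, zero_mul, add_zero,
      zero_add, mul_one, one_mul, sub_zero, zero_sub, neg_zero, zero_div]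
  · ring
  · linear_combination (-(F z * z.2.1) / 2) * rel
  · linear_combination (-(F z * z.2.2) / 2) * rel

end Vale.Agent.P354W2
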