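import Vale.Agent.P354W2.Ode
import Vale.Agent.P354W2.Div
import Vale.Agent.P354RG.Defs
import Vale.Agent.P354KD.Alg
import Vale.Agent.P354J.Pull

/-!
The witness for stationary axially symmetric data with a reflection symmetry.
-/

open scoped ContDiff
open Set Filter Topology

noncomputable section

namespace Vale.Agent.P354W2

open Vale.Agent.P354H (X3 e pd)
open Vale.Agent.P354K
open Vale.Agent.P354KT
open Vale.Agent.P354J (PD MS pb PDy)
open Vale.Agent.P354R (ht dht alp rnd)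
open Vale.Agent.P354D (sgn)
open Vale.Agent.P354RG (frm ten tenC TEN)
open Vale.Agent.P354I (Wi)

theorem sgn_or (σ : Bool) : sgn σ = 1 ∨ sgn σ = -1 := by cases σ <;> simp [sgn]

theorem ht_eq (σ : Bool) (z : X3) : ht σ z.2 = sgn σ * ((1 - ss z) * (1 + ss z)⁻¹) := by
  rw [ht, sgn, ss, div_eq_mul_inv, sub_sub, add_assoc]

theorem rd_ht (σ : Bool) : Rd (fun z => ht σ z.2) fun z => -(4 * sgn σ * mm z) :=
  ((Rd.const (sgn σ)).mul (((Rd.const 1).sub rd_ss).mul (((Rd.const 1).add rd_ss).inv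
    fun z => (q_pos z).ne'))).cg (ht_eq σ) fun z => by
      have := (q_pos z).ne'
      rw [mm]
      field_simp
      ring

theorem ht_mem (σ : Bool) (z : X3) : ht σ z.2 ∈ Icc (-1 : ℝ) 1 :=
  abs_le.1 (abs_le_one_iff_mul_self_le_one.2 (by nlinarith [ht_sq σ z, sg_nn z]))

theorem tenC_eq (c : ℕ → ℝ → ℝ) (σ : Bool) (z : X3) (i j : Fin 3) :
    tenC c σ z (e i) (e j) = frm (fun n => c n (ht σ z.2)) (X0 i) (-(4 * sgn σ * mm z) * N z i)
      (4 * mm z * Ro z i) (X0 j) (-(4 * sgn σ * mm z) * N z j) (4 * mm z * Ro z j)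
      (4 * mm z * D0 i j) := by
  have h' : 1 + z.2.1 ^ 2 + z.2.2 ^ 2 = 1 + ss z := by rw [ss]; ring
  have hm : ∀ x : ℝ, x / (1 + ss z) ^ 2 = x * mm z := fun x => by
    rw [mm, div_eq_mul_inv, sq]
  have h1 : ∀ i, (e i).1 = X0 i := fun i => by fin_cases i <;> rfl
  have h2 : ∀ i, dht σ z.2 (e i).2 = -(4 * sgn σ * mm z) * N z i := fun i => by
    rw [dht, h', hm, sgn]
    fin_cases i <;> simp [e, N] <;> ring
  have h3 : ∀ i, alp z.2 (e i).2 = 4 * mm z * Ro z i := fun i => by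
    rw [alp, h', hm]
    fin_cases i <;> simp [e, Ro] <;> ring
  have h4 : rnd z.2 (e i).2 (e j).2 = 4 * mm z * D0 i j := by
    rw [rnd, h', hm]
    fin_cases i <;> fin_cases j <;> simp [e, D0]
  rw [tenC, h1, h1, h2, h2, h3, h3, h4]

theorem alg_rel {ε s c1 c2 c3 d1 d2 d3 A B B' m m' t : ℝ} (hε : ε = 1 ∨ ε = -1) (hs : 1 + s ≠ 0)
    (h1 : c1 ≠ 0) (hm : m = ((1 + s) * (1 + s))⁻¹) (hm' : m' = -(4 * (1 + s)) * (m * m))
    (ht : t = ε * ((1 - s) * (1 + s)⁻¹)) {a2 a2' a3 a3' l l' b' : ℝ} (e2 : a2 = 4 * m * c1)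
    (e2' : a2' = 4 * m' * c1 - 16 * ε * m ^ 2 * d1) (e3 : a3 = 16 * (m * m) * c2)
    (e3' : a3' = 32 * m * m' * c2 - 64 * ε * m ^ 3 * d2) (el : l = 4 * ε * m * c3 * c1⁻¹)
    (el' : l' = 4 * ε * m' * c3 * c1⁻¹ - 16 * ε ^ 2 * m ^ 2 * (d3 * c1⁻¹ - c3 * d1 * (c1⁻¹ * c1⁻¹)))
    (eb : b' = m' * B - 4 * ε * m ^ 2 * B')
    (hyp : A * (-2 * t * c1 + (1 - t ^ 2) * d1) =
      2 * (1 - t ^ 2) * (c1 + (1 - t ^ 2) * c2 - (1 - t ^ 2) ^ 2 * c3 ^ 2 / c1) * B' +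
      ((1 - t ^ 2) * (d1 - 2 * t * c2 + (1 - t ^ 2) * d2 + 4 * t * (1 - t ^ 2) * c3 ^ 2 / c1 -
        2 * (1 - t ^ 2) ^ 2 * c3 * d3 / c1 + (1 - t ^ 2) ^ 2 * c3 ^ 2 * d1 / c1 ^ 2) -
        6 * t * (c1 + (1 - t ^ 2) * c2 - (1 - t ^ 2) ^ 2 * c3 ^ 2 / c1)) * B) :
    m * A * (2 * a2 + s * a2') = 2 * s * (a2 * (1 - l ^ 2 * s ^ 2) + a3 * s) * b' +
      (s * (a2' * (1 - l ^ 2 * s ^ 2) - a2 * (2 * l * l' * s ^ 2 + 4 * l ^ 2 * s) + a3' * s +
        2 * a3) + 6 * (a2 * (1 - l ^ 2 * s ^ 2) + a3 * s)) * (m * B) := by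
  subst e2 e2' e3 e3' el el' eb hm' ht
  rcases hε with rfl | rfl
  · linear_combination (norm := skip) (-4 * m ^ 2) * hyp
    subst hm
    field_simp
    ring
  · linear_combination (norm := skip) (4 * m ^ 2) * hyp
    subst hm
    field_simp
    ring

theorem hB_eq {c : ℕ → ℝ → ℝ} (σ : Bool) (z : X3) (h1 : c 1 (ht σ z.2) ≠ 0)
    (h5 : c 5 (ht σ z.2) * c 1 (ht σ z.2) =
      c 3 (ht σ z.2) * c 4 (ht σ z.2) * (1 - ht σ z.2 ^ 2)) (i j : Fin 3) :
    tenC c σ z (e i) (e j) = hB (fun z => c 0 (ht σ z.2)) (fun z => 4 * mm z * c 4 (ht σ z.2))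
      (fun z => 4 * mm z * c 1 (ht σ z.2)) (fun z => 16 * (mm z * mm z) * c 2 (ht σ z.2))
      (fun z => 4 * sgn σ * mm z * c 3 (ht σ z.2) * (c 1 (ht σ z.2))⁻¹) z i j := by
  rw [ht_sq, sub_sub_cancel, sg, ← eq_div_iff h1] at h5
  rw [tenC_eq, frm, hB, Matrix.of_apply, h5]
  rcases sgn_or σ with h | h <;> rw [h] <;> field_simp <;> ring

theorem TK_eq (κ : ℕ → ℝ → ℝ) (σ : Bool) (F A B l : X3 → ℝ) (z : X3) :
    ∑ i, ∑ j, TB F A B l z i j * tenC κ σ z (e i) (e j) = F z * sg z * (A z * κ 1 (ht σ z.2) +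
      B z * (κ 1 (ht σ z.2) * (1 + (ss z * l z) ^ 2) + κ 2 (ht σ z.2) * sg z -
        2 * sgn σ * κ 3 (ht σ z.2) * (ss z * l z) * sg z)) := by
  simp only [tenC_eq, frm, TB, Fin.sum_univ_three, X0, Ro, D0, N, sg, ss, Matrix.of_apply,
    Matrix.cons_val', Matrix.cons_val_zero, Matrix.cons_val_one, Matrix.cons_val_two,
    Matrix.cons_val_fin_one, Matrix.head_cons, Matrix.tail_cons, Matrix.head_fin_const,
    Matrix.empty_val']
  rcases sgn_or σ with h | h <;> rw [h] <;> ring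

theorem qf_jet (h π T : X3 → M3) (z : X3) :
    qf (hm (at' (jet h π) z)) (pm (at' (jet 0 T) z)) (pm (at' (jet h π) z)) =
      ∑ a, ∑ b, T z a b * par (h z) (π z) a b := rfl

theorem wit_ten (hT : TEN) {c κ : ℕ → ℝ → ℝ} (sc : ∀ n ≤ 4, ContDiff ℝ ∞ (c n))
    (e1 : ∀ z, c 1 (-z) = c 1 z) (e2 : ∀ z, c 2 (-z) = c 2 z) (o3 : ∀ z, c 3 (-z) = -c 3 z)
    (pos : ∀ z ∈ Icc (-1 : ℝ) 1, 0 < c 1 z ∧
      0 < c 1 z * (c 1 z + (1 - z ^ 2) * c 2 z) - (1 - z ^ 2) ^ 2 * c 3 z ^ 2)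
    (h5 : ∀ z, c 5 z * c 1 z = c 3 z * c 4 z * (1 - z ^ 2))
    (sk : ∀ z ∈ Icc (-1 : ℝ) 1, ContDiffAt ℝ ∞ (κ 1) z ∧ ContDiffAt ℝ ∞ (κ 2) z ∧
      ContDiffAt ℝ ∞ (κ 3) z)
    (k1 : ∀ z, κ 1 (-z) = κ 1 z) (k2 : ∀ z, κ 2 (-z) = κ 2 z) (k3 : ∀ z, κ 3 (-z) = -κ 3 z)
    (k0 : κ 1 0 ≠ 0) (hP : PDy ⟨ten c, ten κ⟩) : Wi ⟨ten c, ten κ⟩ := by
  intro σ b
  have H : PD (pb σ (ten c)) (pb σ (ten κ)) := (P354J.sl2 _ σ hP).1
  have A0 := P354KD.alg0
  obtain ⟨δ0, δp, hδ⟩ := Metric.eventually_nhds_iff.1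
    ((sk 0 (by simp)).1.continuousAt.eventually_ne k0)
  obtain ⟨δ, δ1, δ2, δ3⟩ : ∃ δ > (0 : ℝ), δ ≤ 1 / 4 ∧ 2 * δ ≤ δ0 :=
    ⟨min (1 / 4) (δ0 / 2), by positivity, min_le_left _ _, by linarith [min_le_right (1 / 4) (δ0 / 2)]⟩
  have s0 := sc 0 (by norm_num)
  have s1 := sc 1 (by norm_num)
  have s2 := sc 2 (by norm_num)
  have s3 := sc 3 (by norm_num)
  have s4 := sc 4 (by norm_num)
  have sd : ∀ {f : ℝ → ℝ}, ContDiff ℝ ∞ f → ContDiff ℝ ∞ (deriv f) := fun h =>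
    (contDiff_infty_iff_deriv.1 h).2
  have hd : ∀ {f : ℝ → ℝ}, ContDiff ℝ ∞ f → ∀ x, HasDerivAt f (deriv f x) x := fun h x =>
    (h.differentiable (by simp) x).hasDerivAt
  obtain ⟨A, B, B', ψ, sA, sB, sψ, dB, ψ0, z0, eq⟩ := ode2
    (p := fun t => 2 * (1 - t ^ 2) *
      (c 1 t + (1 - t ^ 2) * c 2 t - (1 - t ^ 2) ^ 2 * c 3 t ^ 2 / c 1 t))
    (q := fun t => (1 - t ^ 2) * (deriv (c 1) t - 2 * t * c 2 t + (1 - t ^ 2) * deriv (c 2) t +
      4 * t * (1 - t ^ 2) * c 3 t ^ 2 / c 1 t -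
        2 * (1 - t ^ 2) ^ 2 * c 3 t * deriv (c 3) t / c 1 t +
        (1 - t ^ 2) ^ 2 * c 3 t ^ 2 * deriv (c 1) t / c 1 t ^ 2) -
        6 * t * (c 1 t + (1 - t ^ 2) * c 2 t - (1 - t ^ 2) ^ 2 * c 3 t ^ 2 / c 1 t))
    (r := fun t => -2 * t * c 1 t + (1 - t ^ 2) * deriv (c 1) t)
    (u := fun t => (1 - t ^ 2) * κ 1 t)
    (v := fun t => (1 - t ^ 2) * (κ 1 t * (1 + ((1 - t ^ 2) * c 3 t / c 1 t) ^ 2) +
      κ 2 t * (1 - t ^ 2) - 2 * κ 3 t * ((1 - t ^ 2) * c 3 t / c 1 t) * (1 - t ^ 2))) δ1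
    (fun t ht => by
      have m : t ∈ Icc (-1 : ℝ) 1 := abs_le.1 (by linarith)
      obtain ⟨p1, p2⟩ := pos t m
      obtain ⟨q1, q2, q3⟩ := sk t m
      have w : 0 < 1 - t ^ 2 := by nlinarith [abs_nonneg t, sq_abs t]
      have a1 := s1.contDiffAt (x := t)
      have a2 := s2.contDiffAt (x := t)
      have a3 := s3.contDiffAt (x := t)
      have b1 := (sd s1).contDiffAt (x := t)
      have b2 := (sd s2).contDiffAt (x := t)
      have b3 := (sd s3).contDiffAt (x := t)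
      have n1 := p1.ne'
      have n2 := (pow_pos p1 2).ne'
      refine ⟨by fun_prop (disch := assumption), by fun_prop (disch := assumption),
        by fun_prop, by fun_prop, by fun_prop (disch := assumption), ?_,
        mul_ne_zero w.ne' (hδ (by rw [Real.dist_eq, sub_zero]; linarith))⟩
      refine mul_ne_zero (by positivity) fun h => ?_
      rw [sub_eq_zero, eq_div_iff n1] at h
      linarith)
    (fun t => by simp only [e1, e2, o3, neg_sq])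
    (fun t => by simp only [e1, e2, o3, neg_sq, der_even e1, der_even e2, der_odd o3]; ring)
    (fun t => by simp only [e1, neg_sq, der_even e1]; ring)
    (fun t => by simp only [k1, neg_sq])
    (fun t => by simp only [e1, o3, k1, k2, k3, neg_sq]; ring)
  have c1 : ∀ z : X3, c 1 (ht σ z.2) ≠ 0 := fun z => (pos _ (ht_mem σ z)).1.ne'
  have r := fun {f : ℝ → ℝ} (h : ContDiff ℝ ∞ f) => (rd_ht σ).comp h (hd h)
  have rl := ((((Rd.const (4 * sgn σ)).mul rd_mm).mul (r s3)).mul ((r s1).inv c1))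
  have rA := rd_mm.mul (r sA)
  have rB := rd_mm.mul ((rd_ht σ).comp sB dB)
  have hf : Sm fun z => ff b z.1 := (ff_sm b).comp contDiff_fst
  have hF : Gr (fun z => ff b z.1 * ff b z.1) fun z j => 2 * deriv (ff b) z.1 * ff b z.1 * X0 j :=
    ((gr_x.comp (ff_sm b) (hd (ff_sm b))).mul (gr_x.comp (ff_sm b) (hd (ff_sm b)))).cg
      (fun _ => rfl) fun z j => by simp only [X0]; ring
  have hdet : Sm fun z => (pb σ (ten c) z).det :=
    contDiffOn_univ.1 (P354J.det_smoothOn fun i j => (H.sh i j).contDiffOn)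
  have dp : ∀ z, 0 < (pb σ (ten c) z).det := fun z => (H.pos z).1.det_pos
  have wp : ∀ z, 0 < √(pb σ (ten c) z).det * mm z := fun z =>
    mul_pos (Real.sqrt_pos.2 (dp z)) (mm_pos z)
  have o : ∀ z, z ∉ KK b → ff b z.1 = 0 ∨ δ ≤ |ht σ z.2| := fun z hz =>
    (out (δ := 1 / 2) le_rfl b hz).imp id fun h => by
      rw [tt] at h
      refine Real.le_sqrt_of_sq_le (show δ ^ 2 ≤ ht σ z.2 ^ 2 by
        nlinarith [ht_sq σ z]) |>.trans (Real.sqrt_sq_eq_abs _).le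
  have T0 : ∀ i j z, z ∉ KK b → TB (fun z => ff b z.1 * ff b z.1) (fun z => mm z * A (ht σ z.2))
      (fun z => mm z * B (ht σ z.2))
      (fun z => 4 * sgn σ * mm z * c 3 (ht σ z.2) * (c 1 (ht σ z.2))⁻¹) z i j = 0 := by
    intro i j z hz
    rcases o z hz with h1 | h1
    · simp [TB, h1]
    · simp [TB, (z0 _ h1).1, (z0 _ h1).2.1]
  have zz : ∀ i j, (fun y : X3 => (0 : X3 → M3) y i j) = fun _ => 0 := fun _ _ => rfl
  refine ⟨KK b, TB (fun z => ff b z.1 * ff b z.1) (fun z => mm z * A (ht σ z.2))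
    (fun z => mm z * B (ht σ z.2))
    (fun z => 4 * sgn σ * mm z * c 3 (ht σ z.2) * (c 1 (ht σ z.2))⁻¹),
    fun z => ff b z.1 * ψ (ht σ z.2) * √(√(pb σ (ten c) z).det * mm z),
    (isCompact_closedBall 0 3).inter_right (isClosed_le continuous_const (by fun_prop)),
    fun z hz i => ((abs_co_le i z).trans (mem_closedBall_zero_iff.1 hz.1)).trans_lt
      Real.pi_gt_three, fun z hz => lt_of_lt_of_le (by norm_num) hz.2, ?_, ?_, fun i z => ?_,
    fun z => (dp z).ne', fun _ _ _ => rfl, fun z hz => ⟨?_, fun x => ?_⟩, ?_,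
    ⟨(2 * sgn b, 1, 0), ?_⟩, fun i z => ?_, fun z => ?_⟩
  · exact jet_jet H.sh (pi_sm H) (fun z i j => ((H.pos z).1.1.apply j i))
      fun z i j => ((A0.2.1 _ _ (H.pos z).1 (H.pos z).2).1.apply j i)
  · exact jet_jet (fun _ _ => contDiff_const) (TB_sm hF.sm (Gr.sm rA) (Gr.sm rB) (Gr.sm rl))
      (fun _ _ _ => rfl) (TB_symm _ _ _ _)
  · exact (H.pos z).1.diag_pos
  · rcases o z hz with h1 | h1
    · simp [h1]
    · simp [(z0 _ h1).2.2]
  · cases x with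
    | h i j => rfl
    | dh k i j => simp only [jet, zz, pd_const]
    | ddh k l i j => simp only [jet, zz, pd_const]
    | p i j => exact T0 i j z hz
    | dp k i j => exact pd_supp k (KK_closed b) (T0 i j) z hz
  · exact (hf.mul (Gr.sm (r sψ))).mul (((hdet.sqrt fun z => (dp z).ne').mul (Gr.sm rd_mm)).sqrt
      fun z => (wp z).ne')
  · have h1 : ht σ ((2 * sgn b, 1, 0) : X3).2 = 0 := by simp [ht]
    have h2 : 0 < ff b (2 * sgn b) := expNegInvGlue.pos_of_pos (by norm_num)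
    rw [h1]
    exact mul_ne_zero (mul_ne_zero h2.ne' ψ0) (Real.sqrt_pos.2 (wp _)).ne'
  · have eh : pb σ (ten c) = _ := funext fun z => Matrix.ext fun i j =>
      (hT c σ z i j).trans (hB_eq σ z (c1 z) (h5 _) i j)
    show PM i (at' (jet (pb σ (ten c)) _) z) _ = 0
    generalize (fun z => piOf (pb σ (ten c) z) (pb σ (ten κ) z)) = π
    rw [eh]
    refine div0 π (r s0) (((Rd.const 4).mul rd_mm).mul (r s4))
      (((Rd.const 4).mul rd_mm).mul (r s1)) (((Rd.const 16).mul (rd_mm.mul rd_mm)).mul (r s2)) rl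
      hF rA rB z ?_ i
    exact alg_rel (m := mm z) (m' := mm' z) (sgn_or σ) (q_pos z).ne' (c1 z) rfl rfl (ht_eq σ z)
      rfl (by ring) rfl (by ring) rfl (by ring) (by ring) (eq (ht σ z.2)).1
  · have k1 : ∀ i j, par (pb σ (ten c) z) (piOf (pb σ (ten c) z) (pb σ (ten κ) z)) i j =
        √(pb σ (ten c) z).det * tenC κ σ z (e i) (e j) := fun i j => by
      have := congrFun (congrFun (A0.2.1 _ _ (H.pos z).1 (H.pos z).2).2 i) j
      rw [kOf, Matrix.of_apply, div_eq_iff (Real.sqrt_pos.2 (dp z)).ne', hT] at this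
      rw [this, mul_comm]
    rw [qf_jet]
    simp only [k1, mul_left_comm _ √(pb σ (ten c) z).det, ← Finset.mul_sum, TK_eq]
    have e3 := (eq (ht σ z.2)).2
    have e4 : ss z * (4 * sgn σ * mm z * c 3 (ht σ z.2) * (c 1 (ht σ z.2))⁻¹) =
        sgn σ * (sg z * c 3 (ht σ z.2) / c 1 (ht σ z.2)) := by rw [sg]; ring
    beta_reduce at e3
    rw [ht_sq, sub_sub_cancel] at e3
    rw [mul_pow _ √_, Real.sq_sqrt (wp z).le, e4]
    rcases sgn_or σ with h | h <;> rw [h] <;>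
      linear_combination (√(pb σ (ten c) z).det * mm z * ff b z.1 ^ 2) * e3

open Vale.Agent.P354RG (Y3 gs gz bet dt hH kH unt cH cK kd PDK)

theorem gs_eq {f : Y3 → ℝ} (h : ContDiff ℝ ∞ f) (p : P354I.P3) (s z : ℝ) :
    gs f (p, s, z) = deriv (fun s => f (p, s, z)) s := by
  have k : HasDerivAt (fun s : ℝ => ((p, s, z) : Y3)) (0, 1, 0) s :=
    (hasDerivAt_const s p).prodMk ((hasDerivAt_id' s).prodMk (hasDerivAt_const s z))
  exact (((h.differentiable (by simp) _).hasFDerivAt.comp_hasDerivAt s k).deriv).symm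

theorem gz_eq {f : Y3 → ℝ} (h : ContDiff ℝ ∞ f) (p : P354I.P3) (s z : ℝ) :
    gz f (p, s, z) = deriv (fun z => f (p, s, z)) z := by
  have k : HasDerivAt (fun z : ℝ => ((p, s, z) : Y3)) (0, 0, 1) z :=
    (hasDerivAt_const z p).prodMk ((hasDerivAt_const z s).prodMk (hasDerivAt_id' z))
  exact (((h.differentiable (by simp) _).hasFDerivAt.comp_hasDerivAt z k).deriv).symm

theorem gs_sm {f : Y3 → ℝ} (h : ContDiff ℝ ∞ f) : ContDiff ℝ ∞ (gs f) :=
  (h.fderiv_right (m := ∞) (by simp)).clm_apply contDiff_const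

theorem gz_sm {f : Y3 → ℝ} (h : ContDiff ℝ ∞ f) : ContDiff ℝ ∞ (gz f) :=
  (h.fderiv_right (m := ∞) (by simp)).clm_apply contDiff_const

/-- **WIT.** -/
theorem wit (hT : TEN) (hP : PDK) : P354RG.WIT := by
  intro p0 k ε0 δ G hG
  obtain ⟨s1, s1p, hs⟩ := hG.dphi
  have k0 := hG.pos0.1
  refine ⟨-Real.log s1 / k, fun p hp t ht => ?_⟩
  have hP' := hP p0 k ε0 δ G hG p t
  have sp := Real.exp_pos (-k * t)
  have sl : Real.exp (-k * t) ≤ s1 := by
    rw [← Real.le_log_iff_exp_le s1p]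
    have := (div_le_iff₀ k0).1 ht
    linarith
  unfold kd at hP' ⊢
  generalize Real.exp (-k * t) = s at *
  have ι : ContDiff ℝ ∞ fun z : ℝ => ((p, s, z) : Y3) := by fun_prop
  have sb : ContDiff ℝ ∞ (bet G) := (contDiff_fst.comp contDiff_snd).mul (hG.smooth 4)
  have g := fun i => (hG.smooth i).comp ι
  have d := fun i => (gs_sm (hG.smooth i)).comp ι
  have b' := (gz_sm sb).comp ι
  have g0 : ContDiff ℝ ∞ fun z => G 0 (p, s, z) := g 0
  have g1 : ContDiff ℝ ∞ fun z => G 1 (p, s, z) := g 1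
  have g3 : ContDiff ℝ ∞ fun z => G 3 (p, s, z) := g 3
  have g4 : ContDiff ℝ ∞ fun z => G 4 (p, s, z) := g 4
  have w : ContDiff ℝ ∞ fun z : ℝ => 1 - z ^ 2 := by fun_prop
  have ev := hG.even p
  have es : ∀ i (c : ℝ), (∀ s z, G i (p, s, -z) = c * G i (p, s, z)) → ∀ z,
      gs (G i) (p, s, -z) = c * gs (G i) (p, s, z) := fun i c h z => by
    rw [gs_eq (hG.smooth i), gs_eq (hG.smooth i), funext fun s => h s z, deriv_const_mul_field]
  have d1 := es 1 1 fun s z => by rw [(ev s z).2.1, one_mul]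
  have d2 := es 2 1 fun s z => by rw [(ev s z).2.2.1, one_mul]
  have d3 := es 3 (-1) fun s z => by rw [(ev s z).2.2.2.1, neg_one_mul]
  have db : ∀ z, gz (bet G) (p, s, -z) = -gz (bet G) (p, s, z) := fun z => by
    rw [gz_eq sb, gz_eq sb]
    exact der_even (f := fun z => bet G (p, s, z)) (fun x => by
      simp only [bet, (ev s x).2.2.2.2]) z
  refine wit_ten hT (fun n hn => ?_) (fun z => (ev s z).2.1) (fun z => (ev s z).2.2.1)
    (fun z => (ev s z).2.2.2.1) (fun z hz => (hG.pos p s z hz).2) (fun z => ?_) (fun z hz => ?_)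
    (fun z => ?_) (fun z => ?_) (fun z => ?_) ?_ hP'
  · interval_cases n
    · simp only [cH, unt, hH, bet]
      exact ((contDiff_const.mul g0).add ((g1.mul ((contDiff_const.mul g4).pow 2)).mul w)).sub
        ((contDiff_const.mul (contDiff_const.mul g4)).mul w)
    · exact g 1
    · exact g 2
    · exact g 3
    · simp only [cH, unt, hH, bet]
      exact contDiff_const.sub ((contDiff_const.mul g4).mul g1)
  · simp only [cH, unt, hH]
    ring
  · have h0 := mul_pos sp (hG.pos p s z hz).1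
    have q : ContDiffAt ℝ ∞ (fun z => 2 * √(s * G 0 (p, s, z))) z :=
      contDiffAt_const.mul ((contDiffAt_const.mul g0.contDiffAt).sqrt h0.ne')
    have q0 : 2 * √(s * G 0 (p, s, z)) ≠ 0 := by positivity
    simp only [cK, unt, kH, dt]
    exact ⟨(contDiff_const.mul (d 1)).contDiffAt.div q q0,
      ((contDiff_const.mul (d 2)).add (((contDiff_const.mul b').mul g3).mul w)).contDiffAt.div q q0,
      ((contDiff_const.mul (d 3)).add (b'.mul g1)).contDiffAt.div q q0⟩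
  · simp only [cK, unt, kH, dt, d1, (ev s z).1, one_mul]
  · simp only [cK, unt, kH, dt, d2, db, (ev s z).1, (ev s z).2.2.2.1, neg_sq]
    ring
  · simp only [cK, unt, kH, dt, d3, db, (ev s z).1, (ev s z).2.1]
    ring
  · have h0 := mul_pos sp (hG.pos p s 0 (by simp)).1
    have h1 := hs p hp s ⟨sp.le, sl⟩
    simp only [cK, unt, kH, dt]
    exact div_ne_zero (mul_ne_zero (neg_ne_zero.2 (mul_pos k0 sp).ne') h1.ne) (by positivity)

end Vale.Agent.P354W2
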