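import Mathlib

/-!
A linear equation with odd coefficients has a solution with compact support.
-/

open scoped ContDiff
open Set Filter Topology

noncomputable section

namespace Vale.Agent.P354W2

theorem prim {u : ℝ → ℝ} (hu : ContDiff ℝ ∞ u) (ho : ∀ x, u (-x) = -u x) :
    ∃ U : ℝ → ℝ, ContDiff ℝ ∞ U ∧ (∀ x, HasDerivAt U (u x) x) ∧ ∀ x, U (-x) = U x := by
  have hd : ∀ x, HasDerivAt (fun y => ∫ t in (0 : ℝ)..y, u t) (u x) x := fun x =>
    (hu.continuous.integral_hasStrictDerivAt 0 x).hasDerivAt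
  refine ⟨fun y => ∫ t in (0 : ℝ)..y, u t, ?_, hd, fun x => ?_⟩
  · rw [contDiff_infty_iff_deriv]
    exact ⟨fun x => (hd x).differentiableAt, by rwa [funext fun x => (hd x).deriv]⟩
  · have h := intervalIntegral.integral_comp_neg (a := 0) (b := x) u
    simp only [ho, intervalIntegral.integral_neg, neg_zero] at h
    beta_reduce
    rw [intervalIntegral.integral_symm (-x) 0, ← h, neg_neg]

theorem sm_loc {f : ℝ → ℝ} {a b : ℝ} (hab : a < b) (h : ∀ z, |z| < b → ContDiffAt ℝ ∞ f z)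
    (h0 : ∀ z, a < |z| → f z = 0) : ContDiff ℝ ∞ f := by
  refine contDiff_iff_contDiffAt.2 fun z => ?_
  rcases lt_or_ge |z| b with hz | hz
  · exact h z hz
  · refine (contDiffAt_const (c := (0 : ℝ))).congr_of_eventuallyEq ?_
    filter_upwards [continuous_abs.continuousAt.eventually (lt_mem_nhds (hab.trans_le hz))]
      with y hy using h0 y hy

theorem ode {a b : ℝ → ℝ} {δ : ℝ} (ha : ContDiff ℝ ∞ a) (hb : ContDiff ℝ ∞ b)
    (oa : ∀ x, a (-x) = -a x) (ob : ∀ x, b (-x) = -b x) (b0 : ∀ x, δ ≤ |x| → b x = 0) :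
    ∃ B : ℝ → ℝ, ContDiff ℝ ∞ B ∧ (∀ x, HasDerivAt B (a x * B x + b x) x) ∧
      ∀ x, δ ≤ |x| → B x = 0 := by
  obtain ⟨α, sα, dα, eα⟩ := prim ha oa
  obtain ⟨I, sI, dI, eI⟩ := prim (u := fun x => Real.exp (-α x) * b x)
    ((Real.contDiff_exp.comp sα.neg).mul hb) fun x => by rw [eα, ob]; ring
  have k : ∀ x, δ ≤ x → I x = I δ := fun x hx =>
    constant_of_has_deriv_right_zero (a := δ) (b := x) sI.continuous.continuousOn
      (fun y hy => by
        have := (dI y).hasDerivWithinAt (s := Ici y)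
        rwa [b0 y (hy.1.trans (le_abs_self y)), mul_zero] at this) x ⟨hx, le_rfl⟩
  refine ⟨fun x => Real.exp (α x) * (I x - I δ), (Real.contDiff_exp.comp sα).mul
    (sI.sub contDiff_const), fun x => ?_, fun x hx => ?_⟩
  · refine ((dα x).exp.fun_mul ((dI x).sub_const (I δ))).congr_deriv ?_
    rw [← mul_assoc (Real.exp (α x)) (Real.exp (-α x)), ← Real.exp_add, add_neg_cancel,
      Real.exp_zero]
    ring
  · beta_reduce
    rcases le_abs.1 hx with h | h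
    · rw [k x h, sub_self, mul_zero]
    · rw [← eI x, k _ h, sub_self, mul_zero]

/-- The coefficients of the witness. -/
theorem ode2 {p q r u v : ℝ → ℝ} {δ : ℝ} (hδ : 0 < δ)
    (sm : ∀ z, |z| < 2 * δ → ContDiffAt ℝ ∞ p z ∧ ContDiffAt ℝ ∞ q z ∧ ContDiffAt ℝ ∞ r z ∧
      ContDiffAt ℝ ∞ u z ∧ ContDiffAt ℝ ∞ v z ∧ p z ≠ 0 ∧ u z ≠ 0)
    (ep : ∀ z, p (-z) = p z) (oq : ∀ z, q (-z) = -q z) (or : ∀ z, r (-z) = -r z)
    (eu : ∀ z, u (-z) = u z) (ev : ∀ z, v (-z) = v z) :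
    ∃ A B B' ψ : ℝ → ℝ, ContDiff ℝ ∞ A ∧ ContDiff ℝ ∞ B ∧ ContDiff ℝ ∞ ψ ∧
      (∀ z, HasDerivAt B (B' z) z) ∧ ψ 0 ≠ 0 ∧ (∀ z, δ ≤ |z| → A z = 0 ∧ B z = 0 ∧ ψ z = 0) ∧
      ∀ z, A z * r z = p z * B' z + q z * B z ∧ A z * u z + B z * v z = -ψ z ^ 2 := by
  let φ : ContDiffBump (0 : ℝ) := ⟨δ, 3 / 2 * δ, hδ, by linarith⟩
  let ψ : ContDiffBump (0 : ℝ) := ⟨δ / 2, δ, by linarith, by linarith⟩
  have φ1 : ∀ z, |z| ≤ δ → φ z = 1 := fun z hz => φ.one_of_mem_closedBall (by simpa using hz)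
  have φ0 : ∀ z, 3 / 2 * δ < |z| → φ z = 0 := fun z hz => φ.zero_of_le_dist (by simpa using hz.le)
  have ψ0 : ∀ z, δ ≤ |z| → ψ z = 0 := fun z hz => ψ.zero_of_le_dist (by simpa using hz)
  obtain ⟨B, sB, dB, B0⟩ := ode (a := fun z => φ z * -((q z + r z * v z / u z) / p z))
    (b := fun z => ψ z ^ 2 * -(r z / u z / p z)) (δ := δ)
    (sm_loc (by linarith : 3 / 2 * δ < 2 * δ) (fun z hz => by
      obtain ⟨h1, h2, h3, h4, h5, h6, h7⟩ := sm z hz
      exact φ.contDiff.contDiffAt.mul ((h2.add ((h3.mul h5).div h4 h7)).div h1 h6).neg)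
      fun z hz => by rw [φ0 z hz, zero_mul])
    (sm_loc (by linarith : δ < 2 * δ) (fun z hz => by
      obtain ⟨h1, -, h3, h4, -, h6, h7⟩ := sm z hz
      exact (ψ.contDiff.contDiffAt.pow 2).mul ((h3.div h4 h7).div h1 h6).neg)
      fun z hz => by rw [ψ0 z hz.le]; ring)
    (fun z => by rw [φ.neg, ep, oq, or, eu, ev]; ring)
    (fun z => by rw [ψ.neg, ep, or, eu]; ring) fun z hz => by rw [ψ0 z hz]; ring
  refine ⟨fun z => -(ψ z ^ 2 + B z * v z) / u z, B, _, ψ, ?_, sB, ψ.contDiff, dB, ?_,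
    fun z hz => ⟨by simp [ψ0 z hz, B0 z hz], B0 z hz, ψ0 z hz⟩, fun z => ?_⟩
  · refine sm_loc (by linarith : δ < 2 * δ) (fun z hz => ?_) fun z hz => by
      rw [ψ0 z hz.le, B0 z hz.le]; ring
    obtain ⟨-, -, -, h4, h5, -, h7⟩ := sm z hz
    exact ((ψ.contDiff.contDiffAt.pow 2).add (sB.contDiffAt.mul h5)).neg.div h4 h7
  · rw [ψ.one_of_mem_closedBall (Metric.mem_closedBall_self ψ.rIn_pos.le)]
    exact one_ne_zero
  · beta_reduce
    rcases le_total |z| δ with hz | hz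
    · obtain ⟨-, -, -, -, -, h6, h7⟩ := sm z (by linarith)
      rw [φ1 z hz]
      constructor <;> field_simp <;> ring
    · rw [ψ0 z hz, B0 z hz]
      constructor <;> ring

theorem der_even {f : ℝ → ℝ} (h : ∀ x, f (-x) = f x) (x : ℝ) : deriv f (-x) = -deriv f x := by
  have := deriv_comp_neg f x
  rw [funext h] at this
  linarith

theorem der_odd {f : ℝ → ℝ} (h : ∀ x, f (-x) = -f x) (x : ℝ) : deriv f (-x) = deriv f x := by
  have := deriv_comp_neg f x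
  rw [funext h, deriv.fun_neg] at this
  linarith

end Vale.Agent.P354W2
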